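import Vale.Agent.P277.R2.H339.Bundle

/-!
# P277: no flips over hyperbolic orbifolds

(1) `X` is a compact connected complex manifold of dimension `n ≥ 1` with a Kähler metric `w`,
`D_1 + ... + D_k` is a reduced divisor with simple normal crossings, `μ_i ∈ {2, 3, ..., ∞}` (`∞` is
written `0`), and the orbifold `(X, ∑ (1 - 1/μ_i) D_i)` is Brody hyperbolic; for `k = 0` this says
that `X` contains no nonconstant entire curve. `B = (1/m) div t` is an effective `ℚ`-divisor with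
`B ≥ ∑ (1 - 1/μ_i) D_i` such that `(X, B)` is log canonical, `t` is a section of the line bundle `L`,
and `M` is any nef line bundle. Then there is no `(K_X + B + M)`-negative contraction of `X`, nor of
any quotient `X/G` by a finite group to which a multiple of `K_X + B + M` descends.

(2) The same for the projective bundle `X = P(L_0 ⊕ ... ⊕ L_r)` over a manifold `Y` as in (1), if `B`
has degree at least `r + 1` on the lines in the fibres.

(3) Whatever the degree of `B` (so `K_X + B + M` need not be pseudo-effective), a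
`(K_X + B + M)`-negative contraction `g : X → Z` of the projective bundle is an isomorphism if some
`a H + π^* P`, `a ≥ 1`, generated by sections, is pulled back from `Z`.
-/

open scoped Manifold ContDiff

noncomputable section

namespace Vale.Agent.Results.P277.NoFlipsHyperbolic

open Vale.Agent.P272.K Vale.Agent.P285.H281.FD Vale.Agent.P285.H766.PB
open Vale.Agent.P285.LK (IsSNCDivisor OrbifoldBrody)
open Vale.Agent.P285.R2.H391 (DivGe)
open Vale.Agent.P277.R2.H339 (NoFlip PullGe noFlip_of_eqSemiample IsContraction NegativeOn triv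
  trivLift PulledBack eq_of_bundle)

theorem result :
    (∀ (n : ℕ) (_ : 1 ≤ n) (X : Type) [TopologicalSpace X] [T2Space X] [CompactSpace X]
      [ConnectedSpace X] [ChartedSpace (Cm n) X] [IsManifold 𝓘(ℂ, Cm n) ω X]
      (w : Chart n X → Cm n → Matrix (Fin n) (Fin n) ℂ) (_ : IsKahler w)
      (k : ℕ) (D : Fin k → Chart n X → Cm n → ℂ) (ψ : Fin k → Chart n X → Cm n → ℝ)
      (c : Fin k → Chart n X → Cm n → Matrix (Fin n) (Fin n) ℂ) (_ : IsSNCDivisor D ψ c)
      (μ : Fin k → ℕ) (_ : ∀ i, μ i ≠ 1) (_ : OrbifoldBrody n X D μ)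
      (L : Bd X) (_ : IsLB n L) (t : L.ι → X → ℂ) (_ : IsSec n L t) (_ : ∃ x, NZ L t x)
      (m : ℕ) (_ : 1 ≤ m) (_ : Lc n m L t)
      (N : Fin k → ℕ) (_ : ∀ i, (m : ℝ) * (1 - (μ i : ℝ)⁻¹) ≤ N i) (_ : DivGe n L t D N)
      (M : Bd X) (_ : IsLB n M) (_ : Nef w M),
      NoFlip n (((Bd.can n X).pow m).mul (L.mul (M.pow m)))) ∧
    (∀ (n r : ℕ) (_ : 1 ≤ n) (_ : 1 ≤ r) (Y : Type) [TopologicalSpace Y] [T2Space Y]
      [CompactSpace Y] [ConnectedSpace Y] [ChartedSpace (Cm n) Y] [IsManifold 𝓘(ℂ, Cm n) ω Y]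
      (w : Chart n Y → Cm n → Matrix (Fin n) (Fin n) ℂ) (_ : IsKahler w)
      (k : ℕ) (D : Fin k → Chart n Y → Cm n → ℂ) (ψ : Fin k → Chart n Y → Cm n → ℝ)
      (c : Fin k → Chart n Y → Cm n → Matrix (Fin n) (Fin n) ℂ) (_ : IsSNCDivisor D ψ c)
      (μ : Fin k → ℕ) (_ : ∀ i, μ i ≠ 1) (_ : OrbifoldBrody n Y D μ)
      (X : Type) [TopologicalSpace X] [T2Space X] [CompactSpace X] [ConnectedSpace X]
      [ChartedSpace (Cm (n + r)) X] [IsManifold 𝓘(ℂ, Cm (n + r)) ω X]
      (w' : Chart (n + r) X → Cm (n + r) → Matrix (Fin (n + r)) (Fin (n + r)) ℂ) (_ : IsKahler w')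
      (L : Fin (r + 1) → Bd Y) (_ : ∀ j, IsLB n (L j)) (π : X → Y) (H : Bd X)
      (_ : IsLB (n + r) H) (t : (j : Fin (r + 1)) → H.ι → (L j).ι → X → ℂ)
      (_ : IsPB n r L π H t) (N : Bd Y) (_ : IsLB n N) (e : ℕ) (s : H.ι × N.ι → X → ℂ)
      (_ : IsSec (n + r) ((H.pow e).mul (pull π N)) s)
      (_ : ∃ x, NZ ((H.pow e).mul (pull π N)) s x) (m : ℕ) (_ : 1 ≤ m)
      (_ : Lc (n + r) m ((H.pow e).mul (pull π N)) s)
      (K : Fin k → ℕ) (_ : ∀ i, (m : ℝ) * (1 - (μ i : ℝ)⁻¹) ≤ K i)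
      (_ : PullGe n (n + r) π ((H.pow e).mul (pull π N)) s D K)
      (f : ℕ) (N' : Bd Y) (_ : IsLB n N') (_ : Nef w' ((H.pow f).mul (pull π N')))
      (A : Bd X) (_ : A = ((Bd.can (n + r) X).pow m).mul (((H.pow e).mul (pull π N)).mul
        (((H.pow f).mul (pull π N')).pow m))),
      (m * (r + 1) ≤ e → NoFlip (n + r) A) ∧
      ∀ (Z : Type) [TopologicalSpace Z] [T2Space Z] (g : X → Z),
        IsContraction (n + r) (triv X) g → NegativeOn (n + r) (triv X) A (trivLift A) g →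
        ∀ (a : ℕ) (_ : 1 ≤ a) (P : Bd Y) (_ : IsLB n P)
          (_ : ∀ x, ∃ T, IsSec (n + r) ((H.pow a).mul (pull π P)) T ∧
            NZ ((H.pow a).mul (pull π P)) T x)
          (_ : PulledBack (n + r) ((H.pow a).mul (pull π P)) g),
          Topology.IsQuotientMap g ∧ Function.Injective g) := by
  refine ⟨?_, ?_⟩
  · intro n hn X _ _ _ _ _ _ w hw k D ψ c hS μ hμ hX L hL t ht h0 m hm hk N hN hd M hM hNM
    exact noFlip_of_eqSemiample
      (Vale.Agent.P285.R2.H391.isLB_mul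
        (Vale.Agent.P285.R2.H391.isLB_pow Vale.Agent.P285.R2.H391.isLB_can m)
        (Vale.Agent.P285.R2.H391.isLB_mul hL (Vale.Agent.P285.R2.H391.isLB_pow hM m)))
      (Vale.Agent.P285.R2.H391.p270_orb hn hw hS hμ hX hL ht h0 hm hk hN hd hM hNM).2.2.2
  · intro n r hn hr Y _ _ _ _ _ _ w hw k D ψ c hD μ hμ hZ X _ _ _ _ _ _ w' hw' L hL π H hH t hX N
      hN e s hs h0 m hm hk K hK hd f N' hN' hM A hA
    subst hA
    refine ⟨fun he => noFlip_of_eqSemiample (Vale.Agent.P270.H766.GB.isLB_adM hX hH hN hN')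
      (Vale.Agent.P285.R5.H80.PB.p270_bundle hn hr hw hD hμ hZ hw'.toIsHermitian hL hN hH hX hm he
        hs h0 hk hK hd hN' hM).2.2, ?_⟩
    intro Z _ _ g hg hneg a ha P hP hgen hpb
    exact ⟨IsClosedMap.isQuotientMap hg.continuous.isClosedMap hg.continuous hg.surjective,
      fun x y hxy => (eq_of_bundle Vale.Agent.P285.H766.PB.genFin
        Vale.Agent.P285.H303.PB.rowChart hn hr hw hD hμ hZ hw'.toIsHermitian hL hN hH hX hm
        hs h0 hk hK hd hN' hM ha hP hgen hpb hg hneg hxy).symm⟩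

end Vale.Agent.Results.P277.NoFlipsHyperbolic
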