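import Vale.Agent.P277.H178.Example
import Vale.Agent.P277.H178.Main

open Vale.Agent.P270 (Torus Factor)
open Vale.Agent.P285.ToricOverTori Vale.Agent.P277.ToricFlips

/-- Let `T` be any complex torus (projective or not), `L i` line bundles on `T`, and let `X i` be
the toric bundles over `T`, twisted by the `L i`, with fibres any projective `ℚ`-factorial toric
varieties `F i` (with the same homogeneous coordinates). Let `D` be any real class (for instance
the class of `K + B + M` for a generalized pair). A sequence of flips `X 0 ⇢ X 1 ⇢ ...` for `D` has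
less than `2 ^ 2 ^ n` steps; in particular there is no infinite sequence of flips. Over every `T`,
such flips exist for fibres of dimension `5 - 2 = 3`. -/
theorem Vale.Agent.Results.P277.ToricBundleFlips.result {g n s : ℕ} (T : Torus g)
    (L : Fin n → Factor T) (F : ℕ → ToricVariety n s) (D : Fin s → ℝ) :
    (∀ N, (∀ i < N, IsFlip (bundle T L (F i)) (bundle T L (F (i + 1))) D) → N < 2 ^ 2 ^ n) ∧
    (¬ ∀ i, IsFlip (bundle T L (F i)) (bundle T L (F (i + 1))) D) ∧
    ∀ L' : Fin 5 → Factor T, ∃ (F₀ F₁ : ToricVariety 5 2) (D' : Fin 2 → ℝ),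
      IsFlip (bundle T L' F₀) (bundle T L' F₁) D' :=
  ⟨fun _ h => bound (X := fun i => bundle T L (F i)) h, fun h =>
    lt_irrefl _ (bound (N := 2 ^ 2 ^ n) (X := fun i => bundle T L (F i)) fun i _ => h i),
    fun L' => exists_flip T L'⟩
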